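import Vale.Agent.P281.H152.TrivZ
import Vale.Agent.P281.H152.Glue

/-!
# P281, block AB (helper152), part 9: assembly, `ABStmt`.
-/

open Set Filter Metric TopologicalSpace Topology
open scoped Topology ContDiff Manifold

noncomputable section

namespace Vale.Agent.P281.H152
open H64

section slice
variable {p : ℕ} {Z Y : Type} [TopologicalSpace Z] [ChartedSpace (Cm (p + 1)) Z]
  [TopologicalSpace Y] {f : Z → Y} {χ : OpenPartialHomeomorph Y (Cm p)} {y₀ : Y}

/-- the points of the slice lie in the fibre -/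
theorem slice_mem {c : OpenPartialHomeomorph Z (Cm p × ℂ)} (hc : IsProd f χ c)
    (hy₀ : y₀ ∈ χ.source) {w : ℂ} (hw : (χ y₀, w) ∈ c.target) :
    c.symm (χ y₀, w) ∈ f ⁻¹' {y₀} := by
  obtain ⟨h1, h2⟩ := hc.fst _ (c.map_target hw)
  rw [c.right_inv hw] at h2
  have h3 : χ y₀ = χ (f (c.symm (χ y₀, w))) := h2
  show f (c.symm (χ y₀, w)) = y₀
  rw [← χ.left_inv h1, ← h3, χ.left_inv hy₀]

open Classical in
/-- the chart of the fibre given by a product chart -/
def sliceChart (c : OpenPartialHomeomorph Z (Cm p × ℂ)) (hc : IsProd f χ c)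
    (hy₀ : y₀ ∈ χ.source) (m₀ : f ⁻¹' {y₀}) : OpenPartialHomeomorph (f ⁻¹' {y₀} : Set Z) ℂ where
  toFun m := (c m.1).2
  invFun w := if h : (χ y₀, w) ∈ c.target then ⟨c.symm (χ y₀, w), slice_mem hc hy₀ h⟩ else m₀
  source := {m | m.1 ∈ c.source}
  target := {w | (χ y₀, w) ∈ c.target}
  map_source' m hm := by
    have hm2 : f m.1 = y₀ := m.2
    have h1 : ((χ y₀, (c m.1).2) : Cm p × ℂ) = c m.1 :=
      Prod.ext (by rw [(hc.fst _ hm).2, hm2]) rfl
    show (χ y₀, (c m.1).2) ∈ c.target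
    rw [h1]
    exact c.map_source hm
  map_target' w hw := by
    have hw' : (χ y₀, w) ∈ c.target := hw
    simp only [dif_pos hw']
    exact c.map_target hw'
  left_inv' m hm := by
    have hm2 : f m.1 = y₀ := m.2
    have h1 : ((χ y₀, (c m.1).2) : Cm p × ℂ) = c m.1 :=
      Prod.ext (by rw [(hc.fst _ hm).2, hm2]) rfl
    have h2 : (χ y₀, (c m.1).2) ∈ c.target := by rw [h1]; exact c.map_source hm
    simp only [dif_pos h2]
    refine Subtype.ext ?_
    show c.symm (χ y₀, (c m.1).2) = m.1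
    rw [h1, c.left_inv hm]
  right_inv' w hw := by
    have hw' : (χ y₀, w) ∈ c.target := hw
    simp only [dif_pos hw']
    rw [c.right_inv hw']
  open_source := c.open_source.preimage continuous_subtype_val
  open_target := c.open_target.preimage (by fun_prop : Continuous fun w : ℂ => (χ y₀, w))
  continuousOn_toFun := by
    intro m hm
    refine ContinuousAt.continuousWithinAt ?_
    exact continuous_snd.continuousAt.comp
      (ContinuousAt.comp (g := c) (c.continuousAt hm) continuousAt_subtype_val)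
  continuousOn_invFun := by
    rw [IsInducing.subtypeVal.continuousOn_iff]
    intro w hw
    have hw' : (χ y₀, w) ∈ c.target := hw
    have h1 : ContinuousAt (fun w : ℂ => c.symm (χ y₀, w)) w :=
      ContinuousAt.comp (g := c.symm) (c.continuousAt_symm hw')
        (by fun_prop : Continuous fun w : ℂ => (χ y₀, w)).continuousAt
    refine h1.continuousWithinAt.congr ?_ ?_
    · intro v hv
      have hv' : (χ y₀, v) ∈ c.target := hv
      simp only [Function.comp_apply, dif_pos hv']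
    · simp only [Function.comp_apply, dif_pos hw']

/-- the charts of the fibre -/
@[reducible] def sliceCharted (hy₀ : y₀ ∈ χ.source)
    (c : (f ⁻¹' {y₀} : Set Z) → OpenPartialHomeomorph Z (Cm p × ℂ)) (h : ∀ m, m.1 ∈ (c m).source)
    (hc : ∀ m, IsProd f χ (c m)) : ChartedSpace ℂ (f ⁻¹' {y₀} : Set Z) where
  atlas := range fun m => sliceChart (c m) (hc m) hy₀ m
  chartAt m := sliceChart (c m) (hc m) hy₀ m
  mem_chart_source m := h m
  chart_mem_atlas m := ⟨m, rfl⟩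

end slice

variable {p : ℕ} {Z Y : Type} [TopologicalSpace Z] [T2Space Z] [ChartedSpace (Cm (p + 1)) Z]
  [IsManifold 𝓘(ℂ, Cm (p + 1)) ω Z] [TopologicalSpace Y] [T2Space Y] [ChartedSpace (Cm p) Y]
  [IsManifold 𝓘(ℂ, Cm p) ω Y]

theorem exists_pre {f : Z → Y} {χ : OpenPartialHomeomorph Y (Cm p)} {y₀ : Y} {R : ℝ}
    (hf : Continuous f) (hy₀ : y₀ ∈ χ.source)
    (hR : 0 < R) (hball : closedBall (χ y₀) R ⊆ χ.target)
    (hK : IsCompact (f ⁻¹' (χ.symm '' closedBall (χ y₀) R))) (hcon : IsConnected (f ⁻¹' {y₀}))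
    (hpc : ∀ x, f x ∈ χ.symm '' closedBall (χ y₀) R → ∃ c : OpenPartialHomeomorph Z (Cm p × ℂ),
      x ∈ c.source ∧ IsProd f χ c) :
    ∃ P : Pre p (F := (f ⁻¹' {y₀} : Set Z)) f χ, χ y₀ ∈ P.T ∧ P.T ⊆ closedBall (χ y₀) R := by
  classical
  obtain ⟨N, ρ, Φ, hN, ht0, hNR, g1, g2, g3, g4, g5, g6⟩ :=
    exists_trivZ hf hy₀ hR hball hK hcon hpc
  set t₀ := χ y₀ with ht₀
  have hFK : ∀ m : (f ⁻¹' {y₀} : Set Z), f m.1 ∈ χ.symm '' closedBall t₀ R := fun m => by
    have hm : f m.1 = y₀ := m.2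
    exact (mem_K hball).2 ⟨by rw [hm]; exact hy₀, by rw [hm]; exact mem_closedBall_self hR.le⟩
  -- the centred product charts
  have hcen : ∀ m : (f ⁻¹' {y₀} : Set Z), ∃ (c' : OpenPartialHomeomorph Z (Cm p × ℂ)) (δ : ℝ),
      0 < δ ∧ IsProd f χ c' ∧ m.1 ∈ c'.source ∧ c' m.1 = (t₀, 0) ∧
      ball t₀ δ ×ˢ ball (0 : ℂ) 3 ⊆ c'.target := by
    intro m
    obtain ⟨c, hc1, hc2⟩ := hpc m.1 (hFK m)
    obtain ⟨c', δ, h1, h2, h3, h4, h5⟩ := hc2.center hc1
    have hm : f m.1 = y₀ := m.2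
    rw [hm] at h4 h5
    exact ⟨c', δ, h1, h2, h3, h4, h5⟩
  choose c' δ hδ hc1 hc2 hc3 hc4 using hcen
  -- the cover of the fibre
  let V : (f ⁻¹' {y₀} : Set Z) → Set Z := fun m => (c' m).source ∩ (c' m) ⁻¹' {q | ‖q.2‖ < 1}
  have hVo : ∀ m, IsOpen (V m) := fun m =>
    (c' m).isOpen_inter_preimage (isOpen_lt (by fun_prop) continuous_const)
  have hVm : ∀ m, m.1 ∈ V m := fun m => ⟨hc2 m, by
    show ‖(c' m m.1).2‖ < 1
    rw [hc3]; simp⟩
  have hFc : IsCompact (f ⁻¹' {y₀}) := by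
    refine hK.of_isClosed_subset (isClosed_singleton.preimage hf) ?_
    intro x hx
    exact hFK ⟨x, hx⟩
  obtain ⟨s, hs⟩ := hFc.elim_nhds_subcover' (fun x hx => V ⟨x, hx⟩)
    fun x hx => (hVo ⟨x, hx⟩).mem_nhds (hVm ⟨x, hx⟩)
  have hnear := fibre_near (χ := χ) hf hR hball hK
    (isOpen_biUnion fun m (_ : m ∈ s) => hVo m) (by
      intro x hx1 hx2
      have hx3 : f x = y₀ := by rw [← χ.left_inv hx1, hx2, χ.left_inv hy₀]
      exact hs hx3)
  have hev : ∀ᶠ t in 𝓝 t₀, (∀ x, f x ∈ χ.source → χ (f x) = t → x ∈ ⋃ m ∈ s, V m) ∧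
      t ∈ N ∧ ∀ m ∈ s, t ∈ ball t₀ (δ m) := by
    have hNe : ∀ᶠ t in 𝓝 t₀, t ∈ N := hN.mem_nhds ht0
    refine hnear.and (hNe.and ?_)
    rw [Filter.eventually_all_finset]
    intro m _
    exact ball_mem_nhds t₀ (hδ m)
  obtain ⟨ε, hε, hball2⟩ := Metric.mem_nhds_iff.1 hev
  have hT1 : ∀ t ∈ ball t₀ ε, t ∈ N := fun t ht => (hball2 ht).2.1
  let e : s ≃ Fin s.card := s.equivFin
  refine ⟨{
    T := ball t₀ ε
    isOpen := isOpen_ball
    conv := convex_ball t₀ ε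
    t₀ := t₀
    mem := mem_ball_self hε
    sub := fun t ht => hball (hNR (hT1 t ht))
    Φ := Φ
    ρ := ρ
    f_Φ := fun t ht m => g1 t (hT1 t ht) m
    ρ_Φ := fun t ht m => g2 t (hT1 t ht) m
    Φ_ρ := fun x hx hx' => g3 x hx (hT1 _ hx')
    ρ_cont := fun x hx hx' => g4 x hx (hT1 _ hx')
    Φ_cont := fun t ht m => g5 t (hT1 t ht) m
    N := s.card
    c := fun i => c' (e.symm i).1
    c_target := fun i => by
      refine Subset.trans ?_ (hc4 (e.symm i).1)
      refine prod_mono ?_ subset_rfl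
      intro t ht
      exact (hball2 ht).2.2 _ (e.symm i).2
    c_fst := fun i => (hc1 _).fst
    c_hol := fun i => (hc1 _).hol
    c_symm_hol := fun i => (hc1 _).symm_hol
    cover := ?_
    smooth := ?_ }, mem_ball_self hε, fun t ht => hNR (hT1 t ht)⟩
  · intro x hx hx'
    have h1 := (hball2 hx').1 x hx rfl
    simp only [mem_iUnion] at h1
    obtain ⟨m, hm, h2, h3⟩ := h1
    refine ⟨e ⟨m, hm⟩, (c' m x).2, h3, ?_⟩
    rw [e.symm_apply_apply]
    show (c' m).symm (χ (f x), (c' m x).2) = x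
    have h4 : ((χ (f x), (c' m x).2) : Cm p × ℂ) = c' m x :=
      Prod.ext ((hc1 m).fst x h2).2.symm rfl
    rw [h4, (c' m).left_inv h2]
  · intro i j t ht s' hs' z hz w hw hρ
    set ci := c' (e.symm i).1 with hci
    set cj := c' (e.symm j).1 with hcj
    have hPi : IsProd f χ ci := hc1 _
    have hPj : IsProd f χ cj := hc1 _
    have hti : (t, z) ∈ ci.target := hc4 _ ⟨(hball2 ht).2.2 _ (e.symm i).2, hz⟩
    have htj : (s', w) ∈ cj.target := hc4 _ ⟨(hball2 hs').2.2 _ (e.symm j).2, hw⟩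
    have hfi : f (ci.symm (t, z)) ∈ χ.source ∧ χ (f (ci.symm (t, z))) = t := by
      obtain ⟨h1, h2⟩ := hPi.fst _ (ci.map_target hti)
      rw [ci.right_inv hti] at h2
      exact ⟨h1, h2.symm⟩
    have hfj : f (cj.symm (s', w)) ∈ χ.source ∧ χ (f (cj.symm (s', w))) = s' := by
      obtain ⟨h1, h2⟩ := hPj.fst _ (cj.map_target htj)
      rw [cj.right_inv htj] at h2
      exact ⟨h1, h2.symm⟩
    set m := ρ (ci.symm (t, z)) with hm
    have hΦi : Φ t m = ci.symm (t, z) := by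
      have := g3 _ hfi.1 (by rw [hfi.2]; exact hT1 t ht)
      rw [hfi.2] at this
      exact this
    have hΦj : Φ s' m = cj.symm (s', w) := by
      have := g3 _ hfj.1 (by rw [hfj.2]; exact hT1 s' hs')
      rw [hfj.2, ← hρ] at this
      exact this
    obtain ⟨a, ha, a1, a2, a3, -⟩ := g6 t (hT1 t ht) m
    obtain ⟨b, hb, b1, b2, -, b4⟩ := g6 s' (hT1 s' hs') m
    have hmf : f m.1 = y₀ := m.2
    have qa1 : ((t₀, (a m.1).2) : Cm p × ℂ) = a m.1 :=
      Prod.ext (by rw [(ha.fst _ a1).2, hmf]) rfl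
    have qb1 : ((t₀, (b m.1).2) : Cm p × ℂ) = b m.1 :=
      Prod.ext (by rw [(hb.fst _ b1).2, hmf]) rfl
    have qa2 : ((t, (a (Φ t m)).2) : Cm p × ℂ) = a (Φ t m) :=
      Prod.ext (by rw [(ha.fst _ a2).2, hΦi, hfi.2]) rfl
    have qb2 : ((s', (b (Φ s' m)).2) : Cm p × ℂ) = b (Φ s' m) :=
      Prod.ext (by rw [(hb.fst _ b2).2, hΦj, hfj.2]) rfl
    have ha1t : ((t₀, (a m.1).2) : Cm p × ℂ) ∈ a.target := by rw [qa1]; exact a.map_source a1
    have hb1t : ((t₀, (b m.1).2) : Cm p × ℂ) ∈ b.target := by rw [qb1]; exact b.map_source b1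
    have ha2t : ((t, (a (Φ t m)).2) : Cm p × ℂ) ∈ a.target := by rw [qa2]; exact a.map_source a2
    have hb2t : ((s', (b (Φ s' m)).2) : Cm p × ℂ) ∈ b.target := by
      rw [qb2]; exact b.map_source b2
    -- the five relations
    have R1 : Rel (fun u => ci.symm (t, u)) z (fun v => a.symm (t, v)) (a (Φ t m)).2 :=
      rel_prod hPi ha hti ha2t (by rw [qa2, a.left_inv a2, hΦi])
    have R3 : Rel (fun w => a.symm (t₀, w)) (a m.1).2 (fun w => b.symm (t₀, w)) (b m.1).2 :=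
      rel_prod ha hb ha1t hb1t (by rw [qa1, qb1, a.left_inv a1, b.left_inv b1])
    have R5 : Rel (fun v => b.symm (s', v)) (b (Φ s' m)).2 (fun u => cj.symm (s', u)) w :=
      rel_prod hb hPj hb2t htj (by rw [qb2, b.left_inv b2, hΦj])
    have R := ((((R1.comp fun x => (ρ x).1).trans a3).trans R3).trans b4).trans
      (R5.comp fun x => (ρ x).1)
    obtain ⟨ψ, r1, r2, r3, r4⟩ := R
    refine ⟨ψ, r1, r2, r3, ?_⟩
    filter_upwards [r4] with u hu
    exact Subtype.ext hu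

/-- **AB**: near every point of `Y ∖ S`, `f` is given by a family. -/
theorem ab : ABStmt := by
  intro p Z Y _ _ _ _ _ _ _ _ f S hf hfib y₀ hy₀
  set χ := chartAt (Cm p) y₀ with hχ
  have hχa : χ ∈ atlas (Cm p) Y := chart_mem_atlas _ y₀
  have hys : y₀ ∈ χ.source := mem_chart_source _ y₀
  have hA : IsOpen (χ.target ∩ χ.symm ⁻¹' Sᶜ) :=
    χ.isOpen_inter_preimage_symm hfib.isClosed.isOpen_compl
  have hAm : χ y₀ ∈ χ.target ∩ χ.symm ⁻¹' Sᶜ := by
    refine ⟨χ.map_source hys, ?_⟩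
    show χ.symm (χ y₀) ∉ S
    rw [χ.left_inv hys]; exact hy₀
  obtain ⟨R, hR, hball⟩ := Metric.nhds_basis_closedBall.mem_iff.1 (hA.mem_nhds hAm)
  have hb1 : closedBall (χ y₀) R ⊆ χ.target := fun t ht => (hball ht).1
  have hKc : IsCompact (χ.symm '' closedBall (χ y₀) R) :=
    (isCompact_closedBall (χ y₀) R).image_of_continuousOn (χ.continuousOn_symm.mono hb1)
  have hKS : χ.symm '' closedBall (χ y₀) R ⊆ Sᶜ := by
    rintro _ ⟨t, ht, rfl⟩
    exact (hball ht).2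
  have hK := hfib.proper _ hKc hKS
  have hpc : ∀ x, f x ∈ χ.symm '' closedBall (χ y₀) R →
      ∃ c : OpenPartialHomeomorph Z (Cm p × ℂ), x ∈ c.source ∧ IsProd f χ c := fun x hx =>
    exists_prodChart hf hχa ((mem_K hb1).1 hx).1 (hfib.submersive x (hKS hx))
  have hcon := hfib.connected y₀ hy₀
  obtain ⟨P, hP1, hP2⟩ := exists_pre hf.continuous hys hR hb1 hK hcon hpc
  have : ConnectedSpace (f ⁻¹' {y₀} : Set Z) := isConnected_iff_connectedSpace.1 hcon
  have hFK : ∀ m : (f ⁻¹' {y₀} : Set Z), f m.1 ∈ χ.symm '' closedBall (χ y₀) R := fun m => by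
    have hm : f m.1 = y₀ := m.2
    exact (mem_K hb1).2 ⟨by rw [hm]; exact hys, by rw [hm]; exact mem_closedBall_self hR.le⟩
  choose c hc1 hc2 using fun m : (f ⁻¹' {y₀} : Set Z) => hpc m.1 (hFK m)
  let : ChartedSpace ℂ (f ⁻¹' {y₀} : Set Z) := sliceCharted hys c hc1 hc2
  obtain ⟨E, Γ, i1, i2, i3, i4, i5, i6, 𝓕, q, h1, h2⟩ := exists_model P hχa
  refine ⟨E, Γ, i1, i2, i3, i4, i5, i6, 𝓕, q, h1, by rw [h2]; exact hP1, ?_⟩
  intro t ht
  rw [h2] at ht
  exact (hball (hP2 ht)).2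

end Vale.Agent.P281.H152
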