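import Vale.Agent.P281.H152.Smooth
import Vale.Agent.P290.H470.Triv

/-!
# P281, block AB (helper152), part 6: Ehresmann's theorem with the relations of parameters.
-/

open Set Filter Metric
open scoped Topology ContDiff Manifold

noncomputable section

namespace Vale.Agent.P281.H152
open H64 Vale.Agent.P290.H470 Vale.Agent.P290.H470.Retr

variable {p : ℕ} {W : Type} [TopologicalSpace W] [ChartedSpace (Cm p × ℂ) W] [T2Space W]
  [SecondCountableTopology W] [IsManifold 𝓘(ℝ, Cm p × ℂ) ∞ W]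

theorem ehresmann {P : W → Cm p} (hP : ∀ x, ∀ y ∈ (chartAt (Cm p × ℂ) x).source,
    (chartAt (Cm p × ℂ) x y).1 = P y) {t0 : Cm p} (hM : IsCompact (P ⁻¹' {t0}))
    (hc : IsConnected (P ⁻¹' {t0}))
    (hprop : ∀ O, IsOpen O → P ⁻¹' {t0} ⊆ O → ∀ᶠ t in 𝓝 t0, P ⁻¹' {t} ⊆ O) :
    ∃ (N : Set (Cm p)) (r : W → W) (Φ : Cm p → W → W), IsOpen N ∧ t0 ∈ N ∧
      (∀ t ∈ N, ∀ m, P m = t0 → P (Φ t m) = t ∧ r (Φ t m) = m) ∧
      (∀ t ∈ N, ∀ y, P y = t → P (r y) = t0 ∧ Φ t (r y) = y) ∧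
      (∀ y, P y ∈ N → ContinuousAt r y) ∧
      (∀ t ∈ N, ∀ m, P m = t0 →
        ContinuousWithinAt (fun q : Cm p × W => Φ q.1 q.2) {q | P q.2 = t0} (t, m)) ∧
      (∀ t ∈ N, ∀ m, P m = t0 → ∃ x : W, m ∈ (chartAt (Cm p × ℂ) x).source ∧
        Φ t m ∈ (chartAt (Cm p × ℂ) x).source ∧
        Rel (fun v => r ((chartAt (Cm p × ℂ) x).symm (t, v))) (chartAt (Cm p × ℂ) x (Φ t m)).2
          (fun w => (chartAt (Cm p × ℂ) x).symm (t0, w)) (chartAt (Cm p × ℂ) x m).2 ∧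
        Rel (fun w => (chartAt (Cm p × ℂ) x).symm (t0, w)) (chartAt (Cm p × ℂ) x m).2
          (fun v => r ((chartAt (Cm p × ℂ) x).symm (t, v))) (chartAt (Cm p × ℂ) x (Φ t m)).2) := by
  obtain ⟨N, r, Φ, hN, ht0, h1, h2, h3, h4, h5, h6⟩ := exists_triv hP hM hc hprop
  refine ⟨N, r, Φ, hN, ht0, h1, h2, fun y hy => (h4 y hy).continuousAt, ?_, ?_⟩
  · intro t ht m hm
    set ψ := chartAt (Cm p × ℂ) m with hψ
    have hs : m ∈ ψ.source := mem_chart_source _ m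
    have h7 := (h5 t ht m hm m hs).continuousAt
    have h8 : ContinuousAt (fun q : Cm p × W => (q.1, (ψ q.2).2)) (t, m) := by
      refine continuousAt_fst.prodMk ?_
      exact continuous_snd.continuousAt.comp
        (ContinuousAt.comp (g := ψ) (f := fun q : Cm p × W => q.2) (ψ.continuousAt hs)
          continuousAt_snd)
    have h9 : ContinuousAt (fun q : Cm p × W => Φ q.1 (ψ.symm (t0, (ψ q.2).2))) (t, m) :=
      ContinuousAt.comp (g := fun q : Cm p × ℂ => Φ q.1 (ψ.symm (t0, q.2)))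
        (f := fun q : Cm p × W => (q.1, (ψ q.2).2)) (x := (t, m)) h7 h8
    refine h9.continuousWithinAt.congr_of_eventuallyEq ?_ ?_
    · have h10 : ∀ᶠ q : Cm p × W in 𝓝 (t, m), q.2 ∈ ψ.source :=
        continuousAt_snd (ψ.open_source.mem_nhds hs)
      filter_upwards [self_mem_nhdsWithin, mem_nhdsWithin_of_mem_nhds h10] with q a1 a2
      have a3 : (t0, (ψ q.2).2) = ψ q.2 := by
        refine Prod.ext ?_ rfl
        rw [hP m _ a2]
        exact a1.symm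
      rw [a3, ψ.left_inv a2]
    · have a3 : (t0, (ψ m).2) = ψ m := by
        refine Prod.ext ?_ rfl
        rw [hP m _ hs, hm]
      simp only
      rw [a3, ψ.left_inv hs]
  · intro t ht m hm
    obtain ⟨x, hx1, hx2, hx3⟩ := h6 t ht m hm
    refine ⟨x, hx1, hx2, ?_⟩
    set ψ := chartAt (Cm p × ℂ) x with hψ
    have hm' : ((t0, (ψ m).2) : Cm p × ℂ) = ψ m := Prod.ext (by rw [hP x m hx1, hm]) rfl
    have hPt : P (Φ t m) = t := (h1 t ht m hm).1
    have hrt : r (Φ t m) = m := (h1 t ht m hm).2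
    have hΦ' : ((t, (ψ (Φ t m)).2) : Cm p × ℂ) = ψ (Φ t m) :=
      Prod.ext (by rw [hP x _ hx2, hPt]) rfl
    set B : ℂ → ℂ := fun w => (ψ (Φ t (ψ.symm (t0, w)))).2 with hB
    set C : ℂ → ℂ := fun v => (ψ (r (ψ.symm (t, v)))).2 with hC
    have hBm : B (ψ m).2 = (ψ (Φ t m)).2 := by
      simp only [hB]; rw [hm', ψ.left_inv hx1]
    have hCm : C (ψ (Φ t m)).2 = (ψ m).2 := by
      simp only [hC]; rw [hΦ', ψ.left_inv hx2, hrt]
    have hmax : ψ ∈ IsManifold.maximalAtlas 𝓘(ℝ, Cm p × ℂ) ∞ W :=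
      IsManifold.chart_mem_maximalAtlas x
    have hι : ContinuousAt (fun w : ℂ => ((t0, w) : Cm p × ℂ)) (ψ m).2 :=
      continuousAt_const.prodMk continuousAt_id
    have hιt : ContinuousAt (fun w : ℂ => ((t, w) : Cm p × ℂ)) (ψ m).2 :=
      continuousAt_const.prodMk continuousAt_id
    have hιv : ContinuousAt (fun w : ℂ => ((t, w) : Cm p × ℂ)) (ψ (Φ t m)).2 :=
      continuousAt_const.prodMk continuousAt_id
    -- smoothness of `B`
    have k1 : ContMDiffAt 𝓘(ℝ, Cm p × ℂ) 𝓘(ℝ, Cm p × ℂ) ∞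
        (fun q : Cm p × ℂ => Φ q.1 (ψ.symm (t0, q.2))) (t, (ψ m).2) := h5 t ht m hm x hx1
    have k2 : ContMDiffAt 𝓘(ℝ, Cm p × ℂ) 𝓘(ℝ, Cm p × ℂ) ∞
        (fun q : Cm p × ℂ => ψ (Φ q.1 (ψ.symm (t0, q.2)))) (t, (ψ m).2) := by
      refine ContMDiffAt.comp (g := ψ) _ ?_ k1
      show ContMDiffAt 𝓘(ℝ, Cm p × ℂ) 𝓘(ℝ, Cm p × ℂ) ∞ ψ (Φ t (ψ.symm (t0, (ψ m).2)))
      rw [hm', ψ.left_inv hx1]
      exact contMDiffAt_of_mem_maximalAtlas hmax hx2
    rw [contMDiffAt_iff_contDiffAt] at k2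
    have k3 : ContDiffAt ℝ ∞ B (ψ m).2 := by
      have a1 : ContDiffAt ℝ ∞ (fun w : ℂ => ((t, w) : Cm p × ℂ)) (ψ m).2 :=
        contDiffAt_const.prodMk contDiffAt_id
      have a2 : ContDiffAt ℝ ∞ (fun w : ℂ => ψ (Φ t (ψ.symm (t0, w)))) (ψ m).2 :=
        ContDiffAt.comp (g := fun q : Cm p × ℂ => ψ (Φ q.1 (ψ.symm (t0, q.2))))
          (f := fun w : ℂ => ((t, w) : Cm p × ℂ)) _ k2 a1
      exact contDiffAt_snd.comp _ a2
    have hPr : P (Φ t m) ∈ N := by rw [hPt]; exact ht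
    have k4 : ContDiffAt ℝ ∞ C (ψ (Φ t m)).2 := by
      have a0 := fr_smooth (x := x) (h4 _ hPr) hx2 (by rw [hrt]; exact hx1)
      rw [← hψ, ← hΦ'] at a0
      have a1 : ContDiffAt ℝ ∞ (fun w : ℂ => ((t, w) : Cm p × ℂ)) (ψ (Φ t m)).2 :=
        contDiffAt_const.prodMk contDiffAt_id
      exact ContDiffAt.comp (g := fr ℂ r x)
          (f := fun w : ℂ => ((t, w) : Cm p × ℂ)) _ a0 a1
    -- the relations
    have e1 : ∀ᶠ w in 𝓝 (ψ m).2, ψ.symm (t0, w) = r (ψ.symm (t, B w)) := by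
      have b1 : ∀ᶠ w in 𝓝 (ψ m).2, (t0, w) ∈ ψ.target :=
        hι (ψ.open_target.mem_nhds (by
          show (t0, (ψ m).2) ∈ ψ.target
          rw [hm']; exact ψ.map_source hx1))
      have b2 : ContinuousAt (fun w => Φ t (ψ.symm (t0, w))) (ψ m).2 :=
        ContinuousAt.comp (g := fun q : Cm p × ℂ => Φ q.1 (ψ.symm (t0, q.2)))
          (f := fun w : ℂ => ((t, w) : Cm p × ℂ)) k1.continuousAt hιt
      have b3 : ∀ᶠ w in 𝓝 (ψ m).2, Φ t (ψ.symm (t0, w)) ∈ ψ.source := by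
        refine b2 (ψ.open_source.mem_nhds ?_)
        show Φ t (ψ.symm (t0, (ψ m).2)) ∈ ψ.source
        rw [hm', ψ.left_inv hx1]; exact hx2
      filter_upwards [b1, b3] with w c1 c2
      have c3 : P (ψ.symm (t0, w)) = t0 := by
        rw [← hP x _ (ψ.map_target c1), ψ.right_inv c1]
      obtain ⟨c4, c5⟩ := h1 t ht _ c3
      have c6 : ((t, B w) : Cm p × ℂ) = ψ (Φ t (ψ.symm (t0, w))) :=
        Prod.ext (by rw [hP x _ c2, c4]) rfl
      rw [c6, ψ.left_inv c2, c5]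
    have e2 : ∀ᶠ v in 𝓝 (ψ (Φ t m)).2, r (ψ.symm (t, v)) = ψ.symm (t0, C v) := by
      have b0 : ((t, (ψ (Φ t m)).2) : Cm p × ℂ) ∈ ψ.target := by
        rw [hΦ']; exact ψ.map_source hx2
      have b1 : ∀ᶠ v in 𝓝 (ψ (Φ t m)).2, (t, v) ∈ ψ.target :=
        hιv (ψ.open_target.mem_nhds b0)
      have b2 : ContinuousAt (fun v => ψ.symm (t, v)) (ψ (Φ t m)).2 :=
        ContinuousAt.comp (g := ψ.symm) (f := fun w : ℂ => ((t, w) : Cm p × ℂ))
          (ψ.continuousAt_symm b0) hιv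
      have b3 : ContinuousAt (fun v => r (ψ.symm (t, v))) (ψ (Φ t m)).2 := by
        refine ContinuousAt.comp (g := r) ?_ b2
        rw [hΦ', ψ.left_inv hx2]
        exact (h4 _ hPr).continuousAt
      have b4 : ∀ᶠ v in 𝓝 (ψ (Φ t m)).2, r (ψ.symm (t, v)) ∈ ψ.source := by
        refine b3 (ψ.open_source.mem_nhds ?_)
        show r (ψ.symm (t, (ψ (Φ t m)).2)) ∈ ψ.source
        rw [hΦ', ψ.left_inv hx2, hrt]; exact hx1
      filter_upwards [b1, b4] with v c1 c2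
      have c3 : P (ψ.symm (t, v)) = t := by
        rw [← hP x _ (ψ.map_target c1), ψ.right_inv c1]
      obtain ⟨c4, -⟩ := h2 t ht _ c3
      have c6 : ((t0, C v) : Cm p × ℂ) = ψ (r (ψ.symm (t, v))) :=
        Prod.ext (by rw [hP x _ c2, c4]) rfl
      rw [c6, ψ.left_inv c2]
    -- the determinants
    have hdB : DifferentiableAt ℝ B (ψ m).2 := k3.differentiableAt (by simp)
    have hdC : DifferentiableAt ℝ C (B (ψ m).2) := by
      rw [hBm]; exact k4.differentiableAt (by simp)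
    have e3 : (fun w => C (B w)) =ᶠ[𝓝 (ψ m).2] fun w => w := by
      have b1 : ∀ᶠ w in 𝓝 (ψ m).2, (t0, w) ∈ ψ.target :=
        hι (ψ.open_target.mem_nhds (by
          show (t0, (ψ m).2) ∈ ψ.target
          rw [hm']; exact ψ.map_source hx1))
      filter_upwards [e1, b1] with w c1 c2
      show (ψ (r (ψ.symm (t, B w)))).2 = w
      rw [← c1, ψ.right_inv c2]
    have e4 : (fderiv ℝ C (B (ψ m).2)).comp (fderiv ℝ B (ψ m).2) = ContinuousLinearMap.id ℝ ℂ := by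
      rw [← fderiv_fun_comp _ hdC hdB, e3.fderiv_eq]
      exact fderiv_fun_id
    have e5 := det_mul_of_comp e4
    rw [hBm] at e5
    have e6 : 0 < (fderiv ℝ C (ψ (Φ t m)).2).det := by
      by_contra hneg
      rw [not_lt] at hneg
      have := mul_nonpos_of_nonpos_of_nonneg hneg hx3.le
      rw [e5] at this
      linarith
    exact ⟨⟨C, k4, hCm, e6, e2⟩, ⟨B, k3, hBm, hx3, e1⟩⟩

end Vale.Agent.P281.H152
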