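import Vale.Agent.P281.H152.Pre

/-!
# P281, block AB (helper152), part 2: `Fam` and `Model`.
-/

open Set Filter Metric Vale.Agent.P281 Vale.Agent.P281.H713
open scoped Topology ContDiff Manifold

noncomputable section

namespace Vale.Agent.P281.H152
open H64

variable {p : ℕ} {Z Y F : Type} [TopologicalSpace Z] [ChartedSpace (Cm (p + 1)) Z]
  [TopologicalSpace Y] [TopologicalSpace F] {f : Z → Y} {χ : OpenPartialHomeomorph Y (Cm p)}
  {E Γ : Type} [TopologicalSpace E] [Group Γ] [MulAction Γ E]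

/-- a lift of the sheet `i` -/
structure Lift (P : Pre p (F := F) f χ) (U : UC E Γ F) (i : Fin P.N) (σ : Cm p × ℂ → E) : Prop where
  cont : ∀ q ∈ P.T ×ˢ ball (0 : ℂ) 3, ContinuousAt σ q
  π : ∀ q ∈ P.T ×ˢ ball (0 : ℂ) 3, U.π (σ q) = P.g i q

variable {P : Pre p (F := F) f χ} {U : UC E Γ F}

namespace Lift

variable {i j : Fin P.N} {σ τ : Cm p × ℂ → E}

/-- local inverse -/
theorem key (hσ : Lift P U i σ) {q₀ : Cm p × ℂ} (hq₀ : q₀ ∈ P.T ×ˢ ball (0 : ℂ) 3) :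
    ∃ h : Cm p × E → ℂ, ContinuousAt h (q₀.1, σ q₀) ∧ h (q₀.1, σ q₀) = q₀.2 ∧
      ∀ᶠ q in 𝓝 (q₀.1, σ q₀), σ (q.1, h q) = q.2 := by
  have hs := Pre.s_mem (P := P) (i := i) hq₀
  have hΦ0 : P.Φ q₀.1 (U.π (σ q₀)) = P.s i q₀ := by
    rw [hσ.π q₀ hq₀]; exact Pre.Φ_g hq₀
  -- continuity of `(t, e) ↦ Φ t (π e)`
  have h1 : ContinuousAt (fun q : Cm p × E => P.Φ q.1 (U.π q.2)) (q₀.1, σ q₀) := by
    have h2 : ContinuousAt (fun q : Cm p × E => (q.1, U.π q.2)) (q₀.1, σ q₀) :=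
      continuousAt_fst.prodMk (U.cov.continuous.continuousAt.comp continuousAt_snd)
    exact ContinuousAt.comp (g := fun q : Cm p × F => P.Φ q.1 q.2)
      (f := fun q : Cm p × E => (q.1, U.π q.2)) (x := (q₀.1, σ q₀))
      (P.Φ_cont q₀.1 hq₀.1 (U.π (σ q₀))) h2
  have h3 : ContinuousAt (fun q : Cm p × E => P.c i (P.Φ q.1 (U.π q.2))) (q₀.1, σ q₀) := by
    refine ContinuousAt.comp (g := P.c i) ?_ h1
    show ContinuousAt (P.c i) (P.Φ q₀.1 (U.π (σ q₀)))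
    rw [hΦ0]
    exact (P.c i).continuousAt hs
  have h4 : P.c i (P.Φ q₀.1 (U.π (σ q₀))) = q₀ := by
    rw [hΦ0]
    exact (P.c i).right_inv (P.c_target i hq₀)
  refine ⟨fun q => (P.c i (P.Φ q.1 (U.π q.2))).2, continuous_snd.continuousAt.comp h3, ?_, ?_⟩
  · show (P.c i (P.Φ q₀.1 (U.π (σ q₀)))).2 = q₀.2
    rw [h4]
  · -- the eventual properties
    have e1 : ∀ᶠ q : Cm p × E in 𝓝 (q₀.1, σ q₀), q.1 ∈ P.T :=
      continuousAt_fst (P.isOpen.mem_nhds hq₀.1)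
    have e2 : ∀ᶠ q : Cm p × E in 𝓝 (q₀.1, σ q₀), P.Φ q.1 (U.π q.2) ∈ (P.c i).source := by
      refine h1 ((P.c i).open_source.mem_nhds ?_)
      show P.Φ q₀.1 (U.π (σ q₀)) ∈ _
      rw [hΦ0]; exact hs
    have e3 : ∀ᶠ q : Cm p × E in 𝓝 (q₀.1, σ q₀),
        P.c i (P.Φ q.1 (U.π q.2)) ∈ P.T ×ˢ ball (0 : ℂ) 3 := by
      refine h3 (Pre.isOpen_dom.mem_nhds ?_)
      show P.c i (P.Φ q₀.1 (U.π (σ q₀))) ∈ _
      rw [h4]; exact hq₀
    have e4 : ∀ᶠ q : Cm p × E in 𝓝 (q₀.1, σ q₀),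
        (q.1, (P.c i (P.Φ q.1 (U.π q.2))).2) = P.c i (P.Φ q.1 (U.π q.2)) := by
      filter_upwards [e1, e2] with q a1 a2
      exact Prod.ext (Pre.c_Φ a1 a2).symm rfl
    have h5 : ContinuousAt (fun q : Cm p × E => σ (P.c i (P.Φ q.1 (U.π q.2)))) (q₀.1, σ q₀) := by
      refine ContinuousAt.comp (g := σ) ?_ h3
      show ContinuousAt σ (P.c i (P.Φ q₀.1 (U.π (σ q₀))))
      rw [h4]
      exact hσ.cont _ hq₀
    have h6 : ∀ᶠ q : Cm p × E in 𝓝 (q₀.1, σ q₀), σ (P.c i (P.Φ q.1 (U.π q.2))) = q.2 := by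
      refine UC.eventually_eq (U := U) h5 continuousAt_snd ?_ ?_
      · show σ (P.c i (P.Φ q₀.1 (U.π (σ q₀)))) = σ q₀
        rw [h4]
      · filter_upwards [e1, e2, e3] with q a1 a2 a3
        rw [hσ.π _ a3]
        show P.ρ ((P.c i).symm (P.c i (P.Φ q.1 (U.π q.2)))) = U.π q.2
        rw [(P.c i).left_inv a2, P.ρ_Φ _ a1]
    filter_upwards [e4, h6] with q a4 a6
    rw [a4]
    exact a6

theorem map_nhds (hσ : Lift P U i σ) {q₀ : Cm p × ℂ} (hq₀ : q₀ ∈ P.T ×ˢ ball (0 : ℂ) 3) :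
    Filter.map (fun q : Cm p × ℂ => (q.1, σ q)) (𝓝 q₀) = 𝓝 (q₀.1, σ q₀) := by
  apply le_antisymm
  · exact continuousAt_fst.prodMk (hσ.cont q₀ hq₀)
  · obtain ⟨h, h1, h2, h3⟩ := hσ.key hq₀
    intro W hW
    rw [Filter.mem_map] at hW
    have h4 : ContinuousAt (fun q : Cm p × E => (q.1, h q)) (q₀.1, σ q₀) :=
      continuousAt_fst.prodMk h1
    have h5 : ∀ᶠ q in 𝓝 (q₀.1, σ q₀),
        (q.1, h q) ∈ (fun q : Cm p × ℂ => (q.1, σ q)) ⁻¹' W := by
      refine h4 ?_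
      show _ ∈ 𝓝 (q₀.1, h (q₀.1, σ q₀))
      rw [h2]
      exact hW
    filter_upwards [h3, h5] with q a3 a5
    have a6 : (q.1, σ (q.1, h q)) ∈ W := a5
    rw [a3] at a6
    exact a6

theorem map_nhds' (hσ : Lift P U i σ) {t : Cm p} {z : ℂ}
    (hq₀ : (t, z) ∈ P.T ×ˢ ball (0 : ℂ) 3) :
    Filter.map (fun u : ℂ => σ (t, u)) (𝓝 z) = 𝓝 (σ (t, z)) := by
  apply le_antisymm
  · exact ContinuousAt.comp (g := σ) (hσ.cont _ hq₀) (continuousAt_const.prodMk continuousAt_id)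
  · obtain ⟨h, h1, h2, h3⟩ := hσ.key hq₀
    intro W hW
    rw [Filter.mem_map] at hW
    have h0 : ContinuousAt (fun e : E => (t, e)) (σ (t, z)) :=
      continuousAt_const.prodMk continuousAt_id
    have h4 : ContinuousAt (fun e : E => h (t, e)) (σ (t, z)) :=
      ContinuousAt.comp (g := h) h1 h0
    have h5 : ∀ᶠ e in 𝓝 (σ (t, z)), h (t, e) ∈ (fun u : ℂ => σ (t, u)) ⁻¹' W := by
      refine h4 ?_
      show _ ∈ 𝓝 (h (t, σ (t, z)))
      rw [show h (t, σ (t, z)) = z from h2]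
      exact hW
    filter_upwards [h0.eventually h3, h5] with e a3 a5
    have a6 : σ (t, h (t, e)) ∈ W := a5
    have a7 : σ (t, h (t, e)) = e := a3
    rw [a7] at a6
    exact a6

theorem inj (hσ : Lift P U i σ) {t : Cm p} {z w : ℂ}
    (hz : (t, z) ∈ P.T ×ˢ ball (0 : ℂ) 3) (hw : (t, w) ∈ P.T ×ˢ ball (0 : ℂ) 3) (γ : Γ)
    (h : γ • σ (t, z) = σ (t, w)) : γ = 1 ∧ z = w := by
  have h1 : U.π (σ (t, z)) = U.π (σ (t, w)) := by rw [← h, UC.π_smul]
  rw [hσ.π _ hz, hσ.π _ hw] at h1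
  have h2 := Pre.eq_of_g hz hw rfl h1
  have h3 : ((t, z) : Cm p × ℂ) = (t, w) :=
    (P.c i).symm.injOn (P.c_target i hz) (P.c_target i hw) h2
  have h4 : z = w := congrArg Prod.snd h3
  subst h4
  exact ⟨U.free _ _ h, rfl⟩

theorem closed [T2Space F] (hσ : Lift P U i σ) {t : Cm p} (ht : t ∈ P.T) {r : ℝ} (hr : r < 3) :
    IsClosed {e : E | ∃ (γ : Γ) (z : ℂ), ‖z‖ ≤ r ∧ γ • σ (t, z) = e} := by
  have h1 : {e : E | ∃ (γ : Γ) (z : ℂ), ‖z‖ ≤ r ∧ γ • σ (t, z) = e} =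
      U.π ⁻¹' ((fun z : ℂ => P.g i (t, z)) '' closedBall 0 r) := by
    ext e
    constructor
    · rintro ⟨γ, z, hz, rfl⟩
      have hz' : (t, z) ∈ P.T ×ˢ ball (0 : ℂ) 3 :=
        ⟨ht, by rw [mem_ball_zero_iff]; exact hz.trans_lt hr⟩
      refine ⟨z, by rw [mem_closedBall_zero_iff]; exact hz, ?_⟩
      rw [UC.π_smul, hσ.π _ hz']
    · rintro ⟨z, hz, hze⟩
      rw [mem_closedBall_zero_iff] at hz
      have hz' : (t, z) ∈ P.T ×ˢ ball (0 : ℂ) 3 :=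
        ⟨ht, by rw [mem_ball_zero_iff]; exact hz.trans_lt hr⟩
      have h2 : U.π (σ (t, z)) = U.π e := by rw [hσ.π _ hz']; exact hze
      obtain ⟨γ, hγ⟩ := (U.eq _ _).1 h2
      exact ⟨γ, z, hz, hγ⟩
  rw [h1]
  refine IsClosed.preimage U.cov.continuous ?_
  refine ((isCompact_closedBall (0 : ℂ) r).image_of_continuousOn ?_).isClosed
  intro z hz
  rw [mem_closedBall_zero_iff] at hz
  have hz' : (t, z) ∈ P.T ×ˢ ball (0 : ℂ) 3 :=
    ⟨ht, by rw [mem_ball_zero_iff]; exact hz.trans_lt hr⟩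
  refine ContinuousAt.continuousWithinAt ?_
  exact ContinuousAt.comp (g := P.g i) (Pre.g_cont hz') (continuousAt_const.prodMk continuousAt_id)

/-- two lifts which are equal at one point -/
theorem eventually_eq [ContinuousConstSMul Γ E] (hσ : Lift P U i σ) (hτ : Lift P U j τ)
    {X : Type*} [TopologicalSpace X] {a b : X → Cm p × ℂ} {x : X} (γ : Γ)
    (ha : ContinuousAt a x) (hb : ContinuousAt b x) (hax : a x ∈ P.T ×ˢ ball (0 : ℂ) 3)
    (hbx : b x ∈ P.T ×ˢ ball (0 : ℂ) 3) (h : σ (a x) = γ • τ (b x))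
    (hg : ∀ᶠ y in 𝓝 x, P.g i (a y) = P.g j (b y)) :
    ∀ᶠ y in 𝓝 x, σ (a y) = γ • τ (b y) := by
  refine UC.eventually_eq (U := U) ?_ ?_ h ?_
  · exact ContinuousAt.comp (g := σ) (hσ.cont _ hax) ha
  · have h1 : ContinuousAt (fun y => τ (b y)) x := ContinuousAt.comp (g := τ) (hτ.cont _ hbx) hb
    exact h1.const_smul γ
  · filter_upwards [hg, ha (Pre.isOpen_dom.mem_nhds hax), hb (Pre.isOpen_dom.mem_nhds hbx)]
      with y h1 h2 h3
    rw [UC.π_smul, hσ.π _ h2, hτ.π _ h3, h1]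

end Lift

/-- the transition map of the product charts -/
theorem trans_analytic (i j : Fin P.N) {q : Cm p × ℂ} (hq : q ∈ P.T ×ˢ ball (0 : ℂ) 3)
    (h : P.s i q ∈ (P.c j).source) :
    AnalyticAt ℂ (fun q => P.c j (P.s i q)) q := by
  have h1 : ContMDiffAt 𝓘(ℂ, Cm p × ℂ) 𝓘(ℂ, Cm (p + 1)) ω (P.c i).symm q :=
    (P.c_symm_hol i).contMDiffAt ((P.c i).open_target.mem_nhds (P.c_target i hq))
  have h2 : ContMDiffAt 𝓘(ℂ, Cm (p + 1)) 𝓘(ℂ, Cm p × ℂ) ω (P.c j) (P.s i q) :=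
    (P.c_hol j).contMDiffAt ((P.c j).open_source.mem_nhds h)
  have h3 : ContMDiffAt 𝓘(ℂ, Cm p × ℂ) 𝓘(ℂ, Cm p × ℂ) ω (fun q => P.c j (P.s i q)) q :=
    ContMDiffAt.comp (g := P.c j) q h2 h1
  rw [contMDiffAt_iff_contDiffAt] at h3
  exact h3.analyticAt

/-- the family -/
def fam [T2Space F] [ContinuousConstSMul Γ E] (P : Pre p (F := F) f χ) (U : UC E Γ F)
    (σ : Fin P.N → Cm p × ℂ → E) (hσ : ∀ i, Lift P U i (σ i)) : Fam p E Γ where
  T := P.T
  isOpen := P.isOpen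
  N := P.N
  σ i t z := σ i (t, z)
  map_nhds i t ht z hz := (hσ i).map_nhds (q₀ := (t, z)) ⟨ht, hz⟩
  map_nhds' i t ht z hz := (hσ i).map_nhds' ⟨ht, hz⟩
  inj i t ht z hz w hw γ h := (hσ i).inj ⟨ht, hz⟩ ⟨ht, hw⟩ γ h
  cover t ht e := by
    obtain ⟨h1, h2⟩ := P.Φ_mem ht (U.π e)
    obtain ⟨i, z, hz, h3⟩ := P.cover _ h1 (by rw [h2]; exact ht)
    rw [h2] at h3
    have hz' : (t, z) ∈ P.T ×ˢ ball (0 : ℂ) 3 :=
      ⟨ht, by rw [mem_ball_zero_iff]; linarith⟩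
    have h4 : U.π (σ i (t, z)) = U.π e := by
      rw [(hσ i).π _ hz']
      show P.ρ ((P.c i).symm (t, z)) = _
      rw [h3, P.ρ_Φ t ht]
    obtain ⟨γ, hγ⟩ := (U.eq _ _).1 h4
    exact ⟨γ, i, z, hz, hγ⟩
  closed i t ht r hr := (hσ i).closed ht hr
  hol i j t ht z hz w hw γ h := by
    have hz' : (t, z) ∈ P.T ×ˢ ball (0 : ℂ) 3 := ⟨ht, hz⟩
    have hw' : (t, w) ∈ P.T ×ˢ ball (0 : ℂ) 3 := ⟨ht, hw⟩
    have h1 : P.g i (t, z) = P.g j (t, w) := by
      rw [← (hσ i).π _ hz', ← (hσ j).π _ hw', h, UC.π_smul]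
    have h2 : P.s i (t, z) = P.s j (t, w) := Pre.eq_of_g hz' hw' rfl h1
    have h3 : P.s i (t, z) ∈ (P.c j).source := by rw [h2]; exact Pre.s_mem hw'
    have h4 := trans_analytic (P := P) i j hz' h3
    have h5 : P.c j (P.s i (t, z)) = (t, w) := by
      rw [h2]; exact (P.c j).right_inv (P.c_target j hw')
    refine ⟨fun q => (P.c j (P.s i q)).2, ?_, ?_, ?_⟩
    · exact analyticAt_snd.comp h4
    · show (P.c j (P.s i (t, z))).2 = w
      rw [h5]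
    · have h6 : ∀ᶠ q in 𝓝 (t, z), q ∈ P.T ×ˢ ball (0 : ℂ) 3 := Pre.isOpen_dom.mem_nhds hz'
      have h7 : ∀ᶠ q in 𝓝 (t, z), P.s i q ∈ (P.c j).source :=
        (Pre.s_cont hz') ((P.c j).open_source.mem_nhds h3)
      have h8 : ∀ᶠ q in 𝓝 (t, z), (q.1, (P.c j (P.s i q)).2) = P.c j (P.s i q) := by
        filter_upwards [h6, h7] with q a6 a7
        refine Prod.ext ?_ rfl
        rw [(P.c_fst j _ a7).2, (Pre.f_s a6).2]
      have h9 : ∀ᶠ q in 𝓝 (t, z), σ i (id q) = γ • σ j (P.c j (P.s i q)) := by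
        refine Lift.eventually_eq (hσ i) (hσ j) γ continuousAt_id h4.continuousAt hz' ?_ ?_ ?_
        · rw [h5]; exact hw'
        · show σ i (t, z) = γ • σ j (P.c j (P.s i (t, z)))
          rw [h5]; exact h
        · filter_upwards [h7] with q a7
          show P.ρ (P.s i q) = P.ρ ((P.c j).symm (P.c j (P.s i q)))
          rw [(P.c j).left_inv a7]
      filter_upwards [h8, h9] with q a8 a9
      rw [a8]
      exact a9
  smooth i j t ht s hs z hz w hw γ h := by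
    have hz' : (t, z) ∈ P.T ×ˢ ball (0 : ℂ) 3 := ⟨ht, hz⟩
    have hw' : (s, w) ∈ P.T ×ˢ ball (0 : ℂ) 3 := ⟨hs, hw⟩
    have h1 : P.g i (t, z) = P.g j (s, w) := by
      rw [← (hσ i).π _ hz', ← (hσ j).π _ hw', h, UC.π_smul]
    obtain ⟨ψ, a1, a2, a3, a4⟩ := P.smooth i j t ht s hs z hz w hw h1
    refine ⟨ψ, a1, a2, a3, ?_⟩
    refine Lift.eventually_eq (hσ i) (hσ j) (a := fun u => (t, u)) (b := fun u => (s, ψ u)) γ
      (continuousAt_const.prodMk continuousAt_id) (continuousAt_const.prodMk a1.continuousAt)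
      hz' ?_ ?_ a4
    · show (s, ψ z) ∈ _
      rw [a2]; exact hw'
    · show σ i (t, z) = γ • σ j (s, ψ z)
      rw [a2]; exact h

/-- the model -/
theorem model [ChartedSpace (Cm p) Y] [T2Space F] [ContinuousConstSMul Γ E] (P : Pre p (F := F) f χ) (U : UC E Γ F)
    (hχ : χ ∈ atlas (Cm p) Y) (σ : Fin P.N → Cm p × ℂ → E) (hσ : ∀ i, Lift P U i (σ i)) :
    Model (n := p + 1) f (fam P U σ hσ) χ (fun t e => P.Φ t (U.π e)) where
  atlas := hχ
  sub := P.sub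
  fib t ht e := P.f_Φ t ht _
  eq t ht e e' := by
    rw [← U.eq]
    constructor
    · intro h
      rw [← P.ρ_Φ t ht (U.π e), ← P.ρ_Φ t ht (U.π e'), h]
    · intro h
      rw [h]
  surj z hz hz' := by
    obtain ⟨e, he⟩ := U.surj (P.ρ z)
    refine ⟨e, ?_⟩
    rw [he]
    exact P.Φ_ρ z hz hz'
  hol i t ht z hz := by
    have hz' : (t, z) ∈ P.T ×ˢ ball (0 : ℂ) 3 := ⟨ht, hz⟩
    have h1 : ContMDiffAt 𝓘(ℂ, Cm p × ℂ) 𝓘(ℂ, Cm (p + 1)) ω (P.c i).symm (t, z) :=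
      (P.c_symm_hol i).contMDiffAt ((P.c i).open_target.mem_nhds (P.c_target i hz'))
    refine h1.congr_of_eventuallyEq ?_
    filter_upwards [Pre.isOpen_dom.mem_nhds hz'] with q hq
    show P.Φ q.1 (U.π (σ i (q.1, q.2))) = (P.c i).symm q
    rw [(hσ i).π _ hq]
    exact Pre.Φ_g hq
  coord i t ht z hz := by
    have hz' : (t, z) ∈ P.T ×ˢ ball (0 : ℂ) 3 := ⟨ht, hz⟩
    have h0 : P.Φ t (U.π (σ i (t, z))) = P.s i (t, z) := by
      rw [(hσ i).π _ hz']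
      exact Pre.Φ_g hz'
    have hs := Pre.s_mem (P := P) (i := i) hz'
    have hcs : P.c i (P.s i (t, z)) = (t, z) := (P.c i).right_inv (P.c_target i hz')
    refine ⟨fun x => (P.c i x).2, ?_, ?_, ?_⟩
    · show ContMDiffAt 𝓘(ℂ, Cm (p + 1)) 𝓘(ℂ, ℂ) ω (fun x => (P.c i x).2)
        (P.Φ t (U.π (σ i (t, z))))
      rw [h0]
      have h2 : ContMDiffAt 𝓘(ℂ, Cm (p + 1)) 𝓘(ℂ, Cm p × ℂ) ω (P.c i) (P.s i (t, z)) :=
        (P.c_hol i).contMDiffAt ((P.c i).open_source.mem_nhds hs)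
      exact ContMDiffAt.comp (g := fun q : Cm p × ℂ => q.2) (I' := 𝓘(ℂ, Cm p × ℂ)) _
        (contDiff_snd.contMDiff.contMDiffAt) h2
    · show (P.c i (P.Φ t (U.π (σ i (t, z))))).2 = z
      rw [h0, hcs]
    · show ∀ᶠ x in 𝓝 (P.Φ t (U.π (σ i (t, z)))),
        P.Φ (χ (f x)) (U.π (σ i (χ (f x), (P.c i x).2))) = x
      rw [h0]
      have h3 : ∀ᶠ x in 𝓝 (P.s i (t, z)), P.c i x ∈ P.T ×ˢ ball (0 : ℂ) 3 := by
        refine (P.c i).continuousAt hs (Pre.isOpen_dom.mem_nhds ?_)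
        rw [hcs]; exact hz'
      filter_upwards [h3, (P.c i).open_source.mem_nhds hs] with x a1 a2
      have h4 : (χ (f x), (P.c i x).2) = P.c i x := Prod.ext (P.c_fst i x a2).2.symm rfl
      have h5 : χ (f x) = (P.c i x).1 := (P.c_fst i x a2).2.symm
      rw [h4, (hσ i).π _ a1, h5]
      exact (Pre.Φ_g a1).trans ((P.c i).left_inv a2)
  cov t ht := by
    let G : F ≃ₜ f ⁻¹' {χ.symm t} :=
      { toFun := fun m => ⟨P.Φ t m, P.f_Φ t ht m⟩
        invFun := fun x => P.ρ x.1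
        left_inv := fun m => P.ρ_Φ t ht m
        right_inv := by
          rintro ⟨x, hx⟩
          have hx' : f x = χ.symm t := hx
          have h1 : f x ∈ χ.source := by rw [hx']; exact χ.map_target (P.sub ht)
          have h2 : χ (f x) = t := by rw [hx']; exact χ.right_inv (P.sub ht)
          have h3 := P.Φ_ρ x h1 (by rw [h2]; exact ht)
          rw [h2] at h3
          exact Subtype.ext h3
        continuous_toFun := by
          refine Continuous.subtype_mk ?_ _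
          rw [continuous_iff_continuousAt]
          intro m
          exact ContinuousAt.comp (g := fun q : Cm p × F => P.Φ q.1 q.2) (f := fun m => (t, m))
            (P.Φ_cont t ht m) (continuousAt_const.prodMk continuousAt_id)
        continuous_invFun := by
          rw [continuous_iff_continuousAt]
          rintro ⟨x, hx⟩
          have hx' : f x = χ.symm t := hx
          have h1 : f x ∈ χ.source := by rw [hx']; exact χ.map_target (P.sub ht)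
          have h2 : χ (f x) = t := by rw [hx']; exact χ.right_inv (P.sub ht)
          exact ContinuousAt.comp (g := P.ρ) (P.ρ_cont x h1 (by rw [h2]; exact ht))
            continuousAt_subtype_val }
    exact U.cov.homeomorph_comp G

end Vale.Agent.P281.H152
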