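import Vale.Agent.P281.H152.Ehr

/-!
# P281, block AB (helper152), part 7: the total space over a small ball as a real manifold.
-/

open Set Filter Metric TopologicalSpace Topology
open scoped Topology ContDiff Manifold

noncomputable section

namespace Vale.Agent.P281.H152
open H64

variable {p : ℕ} {Z Y : Type} [TopologicalSpace Z] [ChartedSpace (Cm (p + 1)) Z]
  [TopologicalSpace Y] {f : Z → Y} {χ : OpenPartialHomeomorph Y (Cm p)}

/-- the charted space structure on an open set by product charts -/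
@[reducible] def totCharted (O : Opens Z) (cc : O → OpenPartialHomeomorph Z (Cm p × ℂ))
    (h : ∀ x, x.1 ∈ (cc x).source) : ChartedSpace (Cm p × ℂ) O where
  atlas := range fun x : O => (cc x).subtypeRestr ⟨x⟩
  chartAt x := (cc x).subtypeRestr ⟨x⟩
  mem_chart_source x := by
    rw [OpenPartialHomeomorph.subtypeRestr_source]
    exact h x
  chart_mem_atlas x := ⟨x, rfl⟩

theorem totManifold (O : Opens Z) (cc : O → OpenPartialHomeomorph Z (Cm p × ℂ))
    (h : ∀ x, x.1 ∈ (cc x).source) (hcc : ∀ x, IsProd f χ (cc x)) :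
    @IsManifold ℝ _ (Cm p × ℂ) _ _ (Cm p × ℂ) _ 𝓘(ℝ, Cm p × ℂ) ∞ O _ (totCharted O cc h) := by
  let : ChartedSpace (Cm p × ℂ) O := totCharted O cc h
  refine isManifold_of_contDiffOn 𝓘(ℝ, Cm p × ℂ) ∞ O ?_
  rintro _ _ ⟨x, rfl⟩ ⟨y, rfl⟩
  simp only [modelWithCornersSelf_coe, modelWithCornersSelf_coe_symm, Function.id_comp,
    Function.comp_id, range_id, inter_univ, preimage_id]
  intro q hq
  have hq1 : q ∈ ((cc x).subtypeRestr (⟨x⟩ : Nonempty O)).target := hq.1
  have hq2 : ((cc x).subtypeRestr (⟨x⟩ : Nonempty O)).symm q ∈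
      ((cc y).subtypeRestr (⟨y⟩ : Nonempty O)).source := hq.2
  have key : ∀ q' ∈ ((cc x).subtypeRestr (⟨x⟩ : Nonempty O)).target,
      ((((cc x).subtypeRestr (⟨x⟩ : Nonempty O)).symm q' : O) : Z) = (cc x).symm q' :=
    fun q' hq' => (cc x).subtypeRestr_symm_apply _ hq'
  have hq3 : q ∈ (cc x).target := (cc x).subtypeRestr_target_subset _ hq1
  have hq4 : (cc x).symm q ∈ (cc y).source := by
    rw [← key q hq1]
    rw [OpenPartialHomeomorph.subtypeRestr_source] at hq2
    exact hq2
  have h1 := trans_an (hcc x) (hcc y) hq3 hq4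
  have h2 : ContDiffAt ℝ ∞ (fun q => cc y ((cc x).symm q)) q :=
    (h1.contDiffAt (n := ∞)).restrict_scalars ℝ
  have h3 : ContDiffAt ℝ ∞ (((cc x).subtypeRestr (⟨x⟩ : Nonempty O)).symm ≫ₕ
      ((cc y).subtypeRestr (⟨y⟩ : Nonempty O))) q := by
    refine h2.congr_of_eventuallyEq ?_
    filter_upwards [((cc x).subtypeRestr (⟨x⟩ : Nonempty O)).open_target.mem_nhds hq1] with q' hq'
    show cc y ((((cc x).subtypeRestr (⟨x⟩ : Nonempty O)).symm q' : O) : Z) = _
    rw [key q' hq']
  exact h3.contDiffWithinAt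

/-- second countability -/
theorem tot_secondCountable (O : Opens Z) {K : Set Z} (hK : IsCompact K)
    (hOK : ∀ x ∈ O, x ∈ K)
    (hc : ∀ x ∈ K, ∃ c : OpenPartialHomeomorph Z (Cm p × ℂ), x ∈ c.source) :
    SecondCountableTopology O := by
  choose c hc using fun x : K => hc x.1 x.2
  obtain ⟨s, hs⟩ := hK.elim_nhds_subcover' (fun x hx => (c ⟨x, hx⟩).source)
    fun x hx => (c ⟨x, hx⟩).open_source.mem_nhds (hc ⟨x, hx⟩)
  let U : s → Set O := fun i => {w | w.1 ∈ (c i.1).source}
  have hU : ∀ i, IsOpen (U i) := fun i => (c i.1).open_source.preimage continuous_subtype_val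
  have hcov : ⋃ i, U i = univ := by
    refine eq_univ_of_forall fun w => ?_
    have h1 := hs (hOK w.1 w.2)
    simp only [mem_iUnion] at h1 ⊢
    obtain ⟨x, hx, h2⟩ := h1
    exact ⟨⟨x, hx⟩, h2⟩
  have : ∀ i, SecondCountableTopology (U i) := by
    intro i
    let g : U i → (c i.1).source := fun w => ⟨w.1.1, w.2⟩
    have hg : IsInducing g := by
      have h1 : IsInducing (fun w : U i => ((w : O) : Z)) :=
        IsInducing.subtypeVal.comp IsInducing.subtypeVal
      exact IsInducing.of_comp (g := (Subtype.val : (c i.1).source → Z))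
        (by fun_prop) continuous_subtype_val h1
    have h2 : IsInducing (fun w : U i => ((c i.1).toHomeomorphSourceTarget (g w) : Cm p × ℂ)) :=
      IsInducing.subtypeVal.comp ((c i.1).toHomeomorphSourceTarget.isInducing.comp hg)
    exact h2.secondCountableTopology
  exact secondCountableTopology_of_countable_cover hU hcov

end Vale.Agent.P281.H152
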