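import Vale.Agent.P281.H152.Tot
import Vale.Agent.P281.H64.SpecG

/-!
# P281, block AB (helper152), part 8: the trivialisation of `f` near a fibre.
-/

open Set Filter Metric TopologicalSpace Topology
open scoped Topology ContDiff Manifold

noncomputable section

namespace Vale.Agent.P281.H152
open H64

section near
variable {p : ℕ} {Z Y : Type} [TopologicalSpace Z] [TopologicalSpace Y] [T2Space Y] {f : Z → Y}
  {χ : OpenPartialHomeomorph Y (Cm p)} {t₀ : Cm p} {R : ℝ}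

theorem mem_K (hball : closedBall t₀ R ⊆ χ.target) {y : Y} :
    y ∈ χ.symm '' closedBall t₀ R ↔ y ∈ χ.source ∧ χ y ∈ closedBall t₀ R := by
  constructor
  · rintro ⟨t, ht, rfl⟩
    refine ⟨χ.map_target (hball ht), ?_⟩
    rw [χ.right_inv (hball ht)]; exact ht
  · rintro ⟨h1, h2⟩
    exact ⟨χ y, h2, χ.left_inv h1⟩

/-- the fibres near a compact fibre -/
theorem fibre_near (hf : Continuous f) (hR : 0 < R) (hball : closedBall t₀ R ⊆ χ.target)
    (hK : IsCompact (f ⁻¹' (χ.symm '' closedBall t₀ R))) {O : Set Z} (hO : IsOpen O)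
    (h : ∀ x, f x ∈ χ.source → χ (f x) = t₀ → x ∈ O) :
    ∀ᶠ t in 𝓝 t₀, ∀ x, f x ∈ χ.source → χ (f x) = t → x ∈ O := by
  set K1 : Set Z := f ⁻¹' (χ.symm '' closedBall t₀ R) ∩ Oᶜ with hK1
  have hK1c : IsCompact K1 := hK.inter_right hO.isClosed_compl
  have hcont : ContinuousOn (fun x => χ (f x)) K1 := by
    intro x hx
    have h1 := ((mem_K hball).1 hx.1).1
    exact (ContinuousAt.comp (g := χ) (χ.continuousAt h1) hf.continuousAt).continuousWithinAt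
  have hcl : IsClosed ((fun x => χ (f x)) '' K1) := (hK1c.image_of_continuousOn hcont).isClosed
  have h0 : t₀ ∉ (fun x => χ (f x)) '' K1 := by
    rintro ⟨x, ⟨hx1, hx2⟩, hx3⟩
    exact hx2 (h x ((mem_K hball).1 hx1).1 hx3)
  filter_upwards [hcl.isOpen_compl.mem_nhds h0, closedBall_mem_nhds t₀ hR] with t h1 h2 x h3 h4
  by_contra hx
  exact h1 ⟨x, ⟨(mem_K hball).2 ⟨h3, by rw [h4]; exact h2⟩, hx⟩, h4⟩

end near

variable {p : ℕ} {Z Y : Type} [TopologicalSpace Z] [T2Space Z] [ChartedSpace (Cm (p + 1)) Z]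
  [IsManifold 𝓘(ℂ, Cm (p + 1)) ω Z] [TopologicalSpace Y] [T2Space Y] [ChartedSpace (Cm p) Y]
  [IsManifold 𝓘(ℂ, Cm p) ω Y]

theorem exists_trivZ {f : Z → Y} {χ : OpenPartialHomeomorph Y (Cm p)} {y₀ : Y} {R : ℝ}
    (hf : Continuous f) (hy₀ : y₀ ∈ χ.source)
    (hR : 0 < R) (hball : closedBall (χ y₀) R ⊆ χ.target)
    (hK : IsCompact (f ⁻¹' (χ.symm '' closedBall (χ y₀) R))) (hcon : IsConnected (f ⁻¹' {y₀}))
    (hpc : ∀ x, f x ∈ χ.symm '' closedBall (χ y₀) R → ∃ c : OpenPartialHomeomorph Z (Cm p × ℂ),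
      x ∈ c.source ∧ IsProd f χ c) :
    ∃ (N : Set (Cm p)) (ρ : Z → f ⁻¹' {y₀}) (Φ : Cm p → f ⁻¹' {y₀} → Z), IsOpen N ∧ χ y₀ ∈ N ∧
      N ⊆ closedBall (χ y₀) R ∧ (∀ t ∈ N, ∀ m, f (Φ t m) = χ.symm t) ∧
      (∀ t ∈ N, ∀ m, ρ (Φ t m) = m) ∧
      (∀ x, f x ∈ χ.source → χ (f x) ∈ N → Φ (χ (f x)) (ρ x) = x) ∧
      (∀ x, f x ∈ χ.source → χ (f x) ∈ N → ContinuousAt ρ x) ∧
      (∀ t ∈ N, ∀ m, ContinuousAt (fun q : Cm p × (f ⁻¹' {y₀} : Set Z) => Φ q.1 q.2) (t, m)) ∧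
      ∀ t ∈ N, ∀ m : f ⁻¹' {y₀}, ∃ c : OpenPartialHomeomorph Z (Cm p × ℂ), IsProd f χ c ∧
        m.1 ∈ c.source ∧ Φ t m ∈ c.source ∧
        Rel (fun v => (ρ (c.symm (t, v))).1) (c (Φ t m)).2 (fun w => c.symm (χ y₀, w))
          (c m.1).2 ∧
        Rel (fun w => c.symm (χ y₀, w)) (c m.1).2 (fun v => (ρ (c.symm (t, v))).1)
          (c (Φ t m)).2 := by
  classical
  set t₀ := χ y₀ with ht₀
  have ht₀t : t₀ ∈ χ.target := χ.map_source hy₀
  have hsy : χ.symm t₀ = y₀ := χ.left_inv hy₀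
  have hOo : IsOpen {x | f x ∈ χ.source ∧ χ (f x) ∈ ball t₀ R} :=
    (χ.isOpen_inter_preimage isOpen_ball).preimage hf
  set O : Opens Z := ⟨{x | f x ∈ χ.source ∧ χ (f x) ∈ ball t₀ R}, hOo⟩ with hOdef
  have hOmem : ∀ x, x ∈ O ↔ f x ∈ χ.source ∧ χ (f x) ∈ ball t₀ R := fun x => Iff.rfl
  have hOK : ∀ x ∈ O, x ∈ f ⁻¹' (χ.symm '' closedBall t₀ R) := fun x hx =>
    (mem_K hball).2 ⟨((hOmem x).1 hx).1, ball_subset_closedBall ((hOmem x).1 hx).2⟩
  choose cc hcc1 hcc2 using fun x : O => hpc x.1 (hOK x.1 x.2)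
  let : ChartedSpace (Cm p × ℂ) O := totCharted O cc hcc1
  have : IsManifold 𝓘(ℝ, Cm p × ℂ) ∞ O := totManifold O cc hcc1 hcc2
  have : SecondCountableTopology O := tot_secondCountable (p := p) O hK hOK fun x hx => by
    obtain ⟨c, hc, -⟩ := hpc x hx
    exact ⟨c, hc⟩
  have hch : ∀ x : O, chartAt (Cm p × ℂ) x = (cc x).subtypeRestr ⟨x⟩ := fun x => rfl
  let P : O → Cm p := fun x => χ (f x.1)
  have hP : ∀ x, ∀ y ∈ (chartAt (Cm p × ℂ) x).source, (chartAt (Cm p × ℂ) x y).1 = P y := by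
    intro x y hy
    rw [hch, OpenPartialHomeomorph.subtypeRestr_source] at hy
    exact ((hcc2 x).fst y.1 hy).2
  have hval : (Subtype.val : O → Z) '' (P ⁻¹' {t₀}) = f ⁻¹' {y₀} := by
    ext x
    constructor
    · rintro ⟨y, hy, rfl⟩
      have hy' : χ (f y.1) = t₀ := hy
      show f y.1 = y₀
      rw [← χ.left_inv ((hOmem y.1).1 y.2).1, hy', hsy]
    · intro hx
      have hx' : f x = y₀ := hx
      exact ⟨⟨x, (hOmem x).2 ⟨by rw [hx']; exact hy₀, by rw [hx']; exact mem_ball_self hR⟩⟩,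
        show χ (f x) = t₀ by rw [hx'], rfl⟩
  have hM : IsCompact (P ⁻¹' {t₀}) := by
    rw [IsEmbedding.subtypeVal.isCompact_iff, hval]
    refine hK.of_isClosed_subset (isClosed_singleton.preimage hf) ?_
    intro x hx
    have hx' : f x = y₀ := hx
    exact (mem_K hball).2 ⟨by rw [hx']; exact hy₀, by rw [hx']; exact mem_closedBall_self hR.le⟩
  have hc : IsConnected (P ⁻¹' {t₀}) := by
    refine ⟨?_, ?_⟩
    · obtain ⟨x, hx⟩ := hcon.nonempty
      rw [← hval] at hx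
      obtain ⟨y, hy, -⟩ := hx
      exact ⟨y, hy⟩
    · have h1 := hcon.isPreconnected
      rw [← hval] at h1
      exact (IsInducing.subtypeVal.isPreconnected_image).1 h1
  have hprop : ∀ O' : Set O, IsOpen O' → P ⁻¹' {t₀} ⊆ O' → ∀ᶠ t in 𝓝 t₀, P ⁻¹' {t} ⊆ O' := by
    intro O' hO' hsub
    have h1 : IsOpen ((Subtype.val : O → Z) '' O') := O.isOpen.isOpenMap_subtype_val _ hO'
    have h2 := fibre_near (χ := χ) hf hR hball hK h1 (by
      intro x hx1 hx2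
      have hxO : x ∈ O := (hOmem x).2 ⟨hx1, by rw [hx2]; exact mem_ball_self hR⟩
      exact ⟨⟨x, hxO⟩, hsub hx2, rfl⟩)
    filter_upwards [h2] with t ht y hy
    have hy' : χ (f y.1) = t := hy
    obtain ⟨y', hy1, hy2⟩ := ht y.1 ((hOmem y.1).1 y.2).1 hy'
    have : y' = y := Subtype.ext hy2
    rw [← this]; exact hy1
  obtain ⟨N, r, Φ, hN, ht0, h1, h2, h3, h4, h5⟩ := ehresmann hP hM hc hprop
  -- the fibre
  have hF : ∀ y : O, P y = t₀ → f y.1 = y₀ := by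
    intro y hy
    have : y.1 ∈ f ⁻¹' {y₀} := by rw [← hval]; exact ⟨y, hy, rfl⟩
    exact this
  have hιO : ∀ m : (f ⁻¹' {y₀} : Set Z), m.1 ∈ O := fun m => by
    have hm : f m.1 = y₀ := m.2
    exact (hOmem m.1).2 ⟨by rw [hm]; exact hy₀, by rw [hm]; exact mem_ball_self hR⟩
  let ι : (f ⁻¹' {y₀} : Set Z) → O := fun m => ⟨m.1, hιO m⟩
  have hιP : ∀ m, P (ι m) = t₀ := fun m => by
    have hm : f m.1 = y₀ := m.2
    show χ (f m.1) = t₀
    rw [hm]
  have hιc : Continuous ι := by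
    exact Continuous.subtype_mk continuous_subtype_val _
  obtain ⟨x₀, hx₀⟩ := hcon.nonempty
  let ρ : Z → (f ⁻¹' {y₀} : Set Z) := fun x =>
    if h : x ∈ O ∧ χ (f x) ∈ N then ⟨(r ⟨x, h.1⟩).1, hF _ (h2 _ h.2 ⟨x, h.1⟩ rfl).1⟩
    else ⟨x₀, hx₀⟩
  have hρ : ∀ y : O, P y ∈ N → (ρ y.1).1 = (r y).1 := by
    intro y hy
    have h : y.1 ∈ O ∧ χ (f y.1) ∈ N := ⟨y.2, hy⟩
    simp only [ρ, dif_pos h]
  have hιρ : ∀ y : O, P y ∈ N → ι (ρ y.1) = r y := fun y hy => Subtype.ext (hρ y hy)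
  have hNO : ∀ x, f x ∈ χ.source → χ (f x) ∈ N ∩ ball t₀ R → x ∈ O := fun x hx hx' =>
    (hOmem x).2 ⟨hx, hx'.2⟩
  refine ⟨N ∩ ball t₀ R, ρ, fun t m => (Φ t (ι m)).1, hN.inter isOpen_ball,
    ⟨ht0, mem_ball_self hR⟩, fun t ht => ball_subset_closedBall ht.2, ?_, ?_, ?_, ?_, ?_, ?_⟩
  · intro t ht m
    have h6 : P (Φ t (ι m)) = t := (h1 t ht.1 (ι m) (hιP m)).1
    have h7 : χ (f (Φ t (ι m)).1) = t := h6
    rw [← χ.left_inv ((hOmem _).1 (Φ t (ι m)).2).1, h7]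
  · intro t ht m
    obtain ⟨h6, h7⟩ := h1 t ht.1 (ι m) (hιP m)
    refine Subtype.ext ?_
    rw [hρ _ (by rw [h6]; exact ht.1), h7]
  · intro x hx hx'
    have hxO := hNO x hx hx'
    have h6 := (h2 (χ (f x)) hx'.1 ⟨x, hxO⟩ rfl).2
    have h7 := hιρ ⟨x, hxO⟩ hx'.1
    show (Φ (χ (f x)) (ι (ρ x))).1 = x
    rw [h7, h6]
  · intro x hx hx'
    have hxO := hNO x hx hx'
    have h6 : ContinuousAt (fun y : O => ρ y.1) ⟨x, hxO⟩ := by
      rw [IsInducing.subtypeVal.continuousAt_iff]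
      have h7 : ContinuousAt (fun y : O => (r y).1) ⟨x, hxO⟩ :=
        continuousAt_subtype_val.comp (h3 ⟨x, hxO⟩ hx'.1)
      refine h7.congr ?_
      have h8 : ContinuousAt P ⟨x, hxO⟩ :=
        ContinuousAt.comp (g := χ) (χ.continuousAt hx)
          (hf.continuousAt.comp continuousAt_subtype_val)
      filter_upwards [h8 (hN.mem_nhds hx'.1)] with y hy
      exact (hρ y hy).symm
    exact (O.isOpen.isOpenEmbedding_subtypeVal.continuousAt_iff (f := Subtype.val)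
      (g := ρ) (x := (⟨x, hxO⟩ : O))).1 h6
  · intro t ht m
    have h6 := h4 t ht.1 (ι m) (hιP m)
    have h7 : Tendsto (fun q : Cm p × (f ⁻¹' {y₀} : Set Z) => (q.1, ι q.2)) (𝓝 (t, m))
        (𝓝[{q | P q.2 = t₀}] (t, ι m)) := by
      refine tendsto_nhdsWithin_iff.2 ⟨?_, Eventually.of_forall fun q => hιP q.2⟩
      exact (continuous_fst.prodMk (hιc.comp continuous_snd)).continuousAt
    have h8 : Tendsto (fun q : Cm p × (f ⁻¹' {y₀} : Set Z) => Φ q.1 (ι q.2)) (𝓝 (t, m))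
        (𝓝 (Φ t (ι m))) := Tendsto.comp h6 h7
    exact (continuous_subtype_val.tendsto _).comp h8
  · intro t ht m
    obtain ⟨x, hx1, hx2, hx3, hx4⟩ := h5 t ht.1 (ι m) (hιP m)
    rw [hch, OpenPartialHomeomorph.subtypeRestr_source] at hx1 hx2
    have hPΦ : P (Φ t (ι m)) = t := (h1 t ht.1 (ι m) (hιP m)).1
    refine ⟨cc x, hcc2 x, hx1, hx2, ?_⟩
    have key : ∀ q' ∈ ((cc x).subtypeRestr (⟨x⟩ : Nonempty O)).target,
        ((((cc x).subtypeRestr (⟨x⟩ : Nonempty O)).symm q' : O) : Z) = (cc x).symm q' :=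
      fun q' hq' => (cc x).subtypeRestr_symm_apply _ hq'
    -- near `(t, v₁)`
    have a1 : ((t, (cc x (Φ t (ι m)).1).2) : Cm p × ℂ) = cc x (Φ t (ι m)).1 := by
      refine Prod.ext ?_ rfl
      rw [((hcc2 x).fst _ hx2).2]
      exact hPΦ.symm
    have a2 : ((t₀, (cc x m.1).2) : Cm p × ℂ) = cc x m.1 := by
      refine Prod.ext ?_ rfl
      have hm : f m.1 = y₀ := m.2
      rw [((hcc2 x).fst _ hx1).2, hm]
    have b1 : ∀ᶠ v in 𝓝 (cc x (Φ t (ι m)).1).2,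
        (t, v) ∈ ((cc x).subtypeRestr (⟨x⟩ : Nonempty O)).target := by
      have hc : ContinuousAt (fun v : ℂ => ((t, v) : Cm p × ℂ)) (cc x (Φ t (ι m)).1).2 :=
        continuousAt_const.prodMk continuousAt_id
      refine hc (((cc x).subtypeRestr (⟨x⟩ : Nonempty O)).open_target.mem_nhds ?_)
      show (t, (cc x (Φ t (ι m)).1).2) ∈ _
      rw [a1]
      exact (cc x).map_subtype_source _ hx2
    have b2 : ∀ᶠ w in 𝓝 (cc x m.1).2,
        (t₀, w) ∈ ((cc x).subtypeRestr (⟨x⟩ : Nonempty O)).target := by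
      have hc : ContinuousAt (fun v : ℂ => ((t₀, v) : Cm p × ℂ)) (cc x m.1).2 :=
        continuousAt_const.prodMk continuousAt_id
      refine hc (((cc x).subtypeRestr (⟨x⟩ : Nonempty O)).open_target.mem_nhds ?_)
      show (t₀, (cc x m.1).2) ∈ _
      rw [a2]
      exact (cc x).map_subtype_source (s := O) _ (x := ι m) hx1
    have d1 : (fun v => (r (((cc x).subtypeRestr (⟨x⟩ : Nonempty O)).symm (t, v))).1)
        =ᶠ[𝓝 (cc x (Φ t (ι m)).1).2] fun v => (ρ ((cc x).symm (t, v))).1 := by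
      filter_upwards [b1] with v hv
      rw [← key _ hv]
      refine (hρ _ ?_).symm
      have h6 := hP x _ (((cc x).subtypeRestr (⟨x⟩ : Nonempty O)).map_target hv)
      rw [← h6, hch, ((cc x).subtypeRestr (⟨x⟩ : Nonempty O)).right_inv hv]
      exact ht.1
    have d2 : (fun w => ((((cc x).subtypeRestr (⟨x⟩ : Nonempty O)).symm (t₀, w) : O) : Z))
        =ᶠ[𝓝 (cc x m.1).2] fun w => (cc x).symm (t₀, w) := by
      filter_upwards [b2] with w hw
      exact key _ hw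
    exact ⟨(hx3.comp Subtype.val).congr d1 d2, (hx4.comp Subtype.val).congr d2 d1⟩

end Vale.Agent.P281.H152
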